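import Crest.Agent.X262.Vb37.Univ
import Crest.Agent.X262.Node22.Alg
import Crest.Agent.X277.BD.Mdl

/-! # Row 262, road B: counting moduli, generic points (helper37) -/

set_option autoImplicit false
set_option linter.unusedSectionVars false

noncomputable section

namespace Crest.Agent.X262.Cnt37

open Polynomial
open Crest.Agent.X277.BD (dim trdeg_eq_dim)
open Crest.Agent.X262.Bub96 (hv)
open Crest.Agent.X262.Vb Crest.Agent.X262.Vb37
open Crest.Agent.X262.Node22 (scl chr Par dimP pv_scl chr_ne)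

variable {J : Type} {io : J → Type} {d d₁ d₂ : J → ℕ}
  [Fintype J] [DecidableEq J] [∀ j, Fintype (io j)] [∀ j, DecidableEq (io j)]
variable {I M M₁ M₂ : Type} {K : Type} [Field K] [Algebra ℂ K]

/-- a field generated by a finite family -/
theorem dim_le_card {ι : Type} [Finite ι] (x : ι → K)
    (h : IntermediateField.adjoin ℂ (Set.range x) = ⊤) :
    Algebra.EssFiniteType ℂ K ∧ dim ℂ K ≤ Nat.card ι := by
  have h1 : Algebra.EssFiniteType ℂ K := by
    rw [← IntermediateField.fg_top_iff, ← h]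
    exact IntermediateField.fg_adjoin_of_finite (Set.finite_range _)
  refine ⟨h1, ?_⟩
  have : Algebra.IsAlgebraic (Algebra.adjoin ℂ (Set.range x)) K := by
    rw [← IntermediateField.isAlgebraic_adjoin_iff_top, h, Algebra.isAlgebraic_iff_isIntegral]
    exact Algebra.isIntegral_of_surjective IntermediateField.topEquiv.surjective
  have h2 := (Algebra.IsAlgebraic.trdeg_le_cardinalMk ℂ (Set.range x)).trans Cardinal.mk_range_le
  rw [trdeg_eq_dim, ← Cardinal.cast_toNat_of_lt_aleph0 (Cardinal.lt_aleph0_of_finite ι),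
    Nat.cast_le] at h2
  exact h2

/-- affine coordinates around the pivots `i₀` -/
abbrev Af (i₀ : (j : J) → io j) : Type := Σ j, {i : io j // i ≠ i₀ j}

theorem card_Af (i₀ : (j : J) → io j) : Nat.card (Af i₀) = dimP io := by
  rw [Nat.card_eq_fintype_card, Fintype.card_sigma, dimP]
  simp only [ne_eq, Fintype.card_subtype_compl, Fintype.card_unique]

/-- the affine coordinates of a point -/
def af (i₀ : (j : J) → io j) (y : Pnt io K) : Af i₀ → K := fun v => y v.1 v.2.1 / y v.1 (i₀ v.1)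

/-- dehomogenisation -/
def dhm (i₀ : (j : J) → io j) : MvPolynomial (Vr io) ℂ →ₐ[ℂ] MvPolynomial (Af i₀) ℂ :=
  MvPolynomial.aeval fun v => if h : v.2 = i₀ v.1 then 1 else MvPolynomial.X ⟨v.1, v.2, h⟩

theorem aeval_dhm {i₀ : (j : J) → io j} {y : Pnt io K} (hy : ∀ j, y j (i₀ j) ≠ 0)
    {q : MvPolynomial (Vr io) ℂ} {κ : J → ℕ} (hq : MH q κ) :
    MvPolynomial.aeval (af i₀ y) (dhm i₀ q) = chr (fun j => (y j (i₀ j))⁻¹) κ * pv y q := by
  rw [← pv_scl hq, dhm, MvPolynomial.comp_aeval_apply, pv]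
  congr 2
  funext v
  split_ifs with h
  · rw [map_one, scl, h, inv_mul_cancel₀ (hy _)]
  · rw [MvPolynomial.aeval_X, scl, af, div_eq_inv_mul]

/-- a point with independent affine coordinates satisfies no multihomogeneous equation -/
theorem eq_zero_of_indep {i₀ : (j : J) → io j} {y : Pnt io K} (hy : ∀ j, y j (i₀ j) ≠ 0)
    (hi : AlgebraicIndependent ℂ (af i₀ y)) {q : MvPolynomial (Vr io) ℂ} {κ : J → ℕ} (hq : MH q κ)
    (h0 : pv y q = 0) : q = 0 := by
  have h1 : dhm i₀ q = 0 := hi (by rw [aeval_dhm hy hq, h0, mul_zero, map_zero])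
  let R := MvPolynomial (Vr io) ℂ
  let Y : Pnt io (FractionRing R) := fun j i => algebraMap R _ (MvPolynomial.X ⟨j, i⟩)
  have hY : ∀ j, Y j (i₀ j) ≠ 0 := fun j =>
    (map_ne_zero_iff _ (IsFractionRing.injective R _)).2 (MvPolynomial.X_ne_zero _)
  have h2 := aeval_dhm hY hq
  rw [h1, map_zero, eq_comm, mul_eq_zero, or_iff_right (chr_ne (fun j => inv_ne_zero (hY j)) _)] at h2
  have h3 : pv Y q = algebraMap R _ q := by
    have := MvPolynomial.comp_aeval_apply (f := MvPolynomial.X)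
      (IsScalarTower.toAlgHom ℂ R (FractionRing R)) q
    rw [MvPolynomial.aeval_X_left_apply] at this
    exact this.symm
  exact IsFractionRing.injective R _ (by rw [← h3, h2, map_zero])

theorem dimP_pos {y : Pnt io K} (hy : NZ y) {q : MvPolynomial (Vr io) ℂ} {κ : J → ℕ} (hq : MH q κ)
    (h : q ≠ 0) (h0 : pv y q = 0) : 0 < dimP io := by
  choose i₀ hi using hy
  rw [← card_Af i₀, Nat.card_pos_iff]
  refine ⟨?_, inferInstance⟩
  by_contra hne
  have := not_nonempty_iff.1 hne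
  exact h (eq_zero_of_indep hi algebraicIndependent_empty_type hq h0)

/-- the marked points of the universal datum are generic points of the ambient space -/
theorem univ_pv [Fintype M] {ξ : Dat io d M K} (hu : ξ.Univ) (a : M)
    {q : MvPolynomial (Vr io) ℂ} {κ : J → ℕ} (hq : MH q κ) (h0 : pv (ξ.cfg.y a) q = 0) : q = 0 := by
  classical
  obtain ⟨b, c, hb, hc, hbc⟩ : ∃ b c : M, a ≠ b ∧ a ≠ c ∧ b ≠ c := by
    have h1 : 1 < (Finset.univ.erase a).card := by
      have := univ_card hu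
      rw [Finset.card_erase_of_mem (Finset.mem_univ _), Finset.card_univ]; omega
    obtain ⟨b, hb, c, hc, h⟩ := Finset.one_lt_card.1 h1
    exact ⟨b, c, (Finset.ne_of_mem_erase hb).symm, (Finset.ne_of_mem_erase hc).symm, h⟩
  obtain ⟨η, h1, h2, h3⟩ := univ_nm3 hu hb hc hbc
  obtain ⟨s, -, hs⟩ := eqv_cfg h1
  have h4 : pv (η.cfg.y a) q = 0 := by
    rw [hs]
    exact (pv_scl hq (s a) (ξ.cfg.y a)).trans (by rw [h0, mul_zero])
  choose i₀ hi using η.cp.2.1
  have h5 : η.cfg.y a = fun j i => (η.f j i).coeff (d j) := by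
    funext j i; simp only [Dat.cfg, Dat.pt, h2.1, hv]
  rw [h5] at h4
  refine eq_zero_of_indep (i₀ := i₀) hi ?_ hq h4
  refine (indep_gen h3 (p0 := fun j => (i₀ j, Fin.last _)) h2 hi).2.comp
    (fun v : Af i₀ => .inl ⟨v.1, (v.2.1, Fin.last _), fun h => v.2.2 (Prod.mk.inj h).1⟩) ?_
  rintro ⟨j, i, hi⟩ ⟨j', i', hi'⟩ h
  obtain ⟨rfl, h⟩ := Sigma.mk.inj (Sum.inl.inj h)
  obtain rfl : i = i' := (Prod.mk.inj (Subtype.mk.inj (eq_of_heq h))).1
  rfl

/-! ### the number of moduli -/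

theorem count_one [Fintype M] (ξ : Dat io d M K) {a b c : M} (h : Nm3 ξ a b c)
    (hg : IntermediateField.adjoin ℂ ξ.crd = ⊤) :
    Algebra.EssFiniteType ℂ K ∧ dim ℂ K ≤ mdim io d (Fintype.card M) := by
  choose i₀ hi using ξ.cp.2.1
  rw [← card_Ix (fun j => (i₀ j, Fin.last (d j))) h.ne.1 h.ne.2.1 h.ne.2.2]
  exact dim_le_card (gen ξ _ a b c) (top_le_iff.1 (hg ▸ adjoin_gen h hi))

/-- the coefficient which is determined by the value at `t` -/
def el (n : ℕ) : Option K → Fin (n + 1)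
  | none => Fin.last n
  | some _ => 0

theorem hv_mem (E : IntermediateField ℂ K) {n : ℕ} {f : K[X]} {t : Option K}
    (ht : ∀ s, t = some s → s ∈ E) {c : K} (h : ∀ l, f.coeff l / c ∈ E) : hv n f t / c ∈ E := by
  cases t with
  | none => exact h n
  | some s =>
    rw [hv, eval_eq_sum_range, Finset.sum_div]
    refine sum_mem fun l _ => ?_
    rw [mul_div_right_comm]
    exact mul_mem (h l) (pow_mem (ht s rfl) _)

theorem coeff_mem (E : IntermediateField ℂ K) {n : ℕ} {f : K[X]} {t : Option K}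
    (ht : ∀ s, t = some s → s ∈ E) {c : K} (h : ∀ l : ℕ, l ≠ el n t → f.coeff l / c ∈ E)
    (h1 : hv n f t / c ∈ E) : f.coeff (el n t) / c ∈ E := by
  cases t with
  | none => exact h1
  | some s =>
    have h2 := hv_mem E (n := n) (f := f.erase 0) ht (c := c) fun l => by
      rw [coeff_erase]
      split_ifs with hl
      · rw [zero_div]; exact zero_mem E
      · exact h l hl
    have h3 : f.coeff 0 = f.eval s - (f.erase 0).eval s := by
      nth_rewrite 2 [← monomial_add_erase f 0]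
      simp
    have := sub_mem h1 h2
    rwa [← sub_div, hv, hv, ← h3] at this

/-- the ratios of the coordinates of a marked point are moduli -/
theorem rat_mem (E : IntermediateField ℂ K) {ξ : Dat io d I K} (h : ξ.crd ⊆ E) (q : I) (j : J)
    (i i' : io j) : ξ.cfg.y q j i / ξ.cfg.y q j i' ∈ E := by
  obtain ⟨i₀, hi⟩ := ξ.cp.2.1 j
  rw [← div_div_div_cancel_right₀ hi]
  have key : ∀ i, ξ.cfg.y q j i / (ξ.f j i₀).coeff (d j) ∈ E := fun i =>
    hv_mem E (fun s hs => h (Or.inr ⟨q, hs⟩)) fun l => h (Or.inl ⟨j, i, i₀, l, d j, rfl⟩)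
  exact div_mem (key i) (key i')

theorem count_two [Fintype M₁] [Fintype M₂] (ζ₁ : Dat io d₁ M₁ K) (ζ₂ : Dat io d₂ M₂ K)
    (n₁ : M₁) (n₂ : M₂) {a₁ b₁ c₁ : M₁} {a b c : M₂} (h₁ : Nm3 ζ₁ a₁ b₁ c₁) (h₂ : Nm3 ζ₂ a b c)
    (hp : Par (ζ₁.cfg.y n₁) (ζ₂.cfg.y n₂))
    (hg : IntermediateField.adjoin ℂ (ζ₁.crd ∪ ζ₂.crd) = ⊤) :
    Algebra.EssFiniteType ℂ K ∧
      dim ℂ K + dimP io ≤ mdim io d₁ (Fintype.card M₁) + mdim io d₂ (Fintype.card M₂) := by
  classical
  choose i₁ hi₁ using ζ₁.cp.2.1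
  choose i₀ hi₀ using nz_pt ζ₂ (ζ₂.x n₂)
  have hl : ∀ j, ∃ l : Fin (d₂ j + 1), (ζ₂.f j (i₀ j)).coeff l ≠ 0 := by
    intro j
    have h0 : ζ₂.f j (i₀ j) ≠ 0 := fun h => hi₀ j (by
      rw [Dat.pt, h]; cases ζ₂.x n₂ <;> simp [hv])
    exact ⟨⟨_, Nat.lt_succ_of_le (ζ₂.cp.1 j (i₀ j))⟩, leadingCoeff_ne_zero.2 h0⟩
  choose l₀ hl₀ using hl
  let p₁ : (j : J) → io j × Fin (d₁ j + 1) := fun j => (i₁ j, Fin.last _)
  let p₂ : (j : J) → io j × Fin (d₂ j + 1) := fun j => (i₀ j, l₀ j)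
  let e : Af i₀ → Ix p₂ a b c := fun v =>
    .inl ⟨v.1, (v.2.1, el _ (ζ₂.x n₂)), fun h => v.2.2 (Prod.mk.inj h).1⟩
  have he : Function.Injective e := by
    rintro ⟨j, i, hi⟩ ⟨j', i', hi'⟩ h
    obtain ⟨rfl, h⟩ := Sigma.mk.inj (Sum.inl.inj h)
    obtain rfl : i = i' := (Prod.mk.inj (Subtype.mk.inj (eq_of_heq h))).1
    rfl
  let G : Ix p₁ a₁ b₁ c₁ ⊕ {z // z ∉ Set.range e} → K :=
    Sum.elim (gen ζ₁ p₁ a₁ b₁ c₁) fun z => gen ζ₂ p₂ a b c z.1
  set E := IntermediateField.adjoin ℂ (Set.range G) with hE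
  have k0 : ∀ z, z ∉ Set.range e → gen ζ₂ p₂ a b c z ∈ E := fun z hz =>
    IntermediateField.subset_adjoin _ _ ⟨.inr ⟨z, hz⟩, rfl⟩
  have c1 : ζ₁.crd ⊆ E := fun t ht => IntermediateField.adjoin.mono ℂ _ _
    (by rintro _ ⟨z, rfl⟩; exact ⟨.inl z, rfl⟩)
    (adjoin_gen (p0 := p₁) h₁ hi₁ (IntermediateField.subset_adjoin _ _ ht))
  have kx : ∀ q s, ζ₂.x q = some s → s ∈ E := by
    intro q s hq
    by_cases ha : q = a
    · rw [ha, h₂.1] at hq; cases hq
    by_cases hb : q = b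
    · rw [hb, h₂.2.1] at hq; cases hq; exact E.zero_mem
    by_cases hc : q = c
    · rw [hc, h₂.2.2] at hq; cases hq; exact E.one_mem
    have := k0 (.inr ⟨q, ha, hb, hc⟩) (by rintro ⟨v, hv⟩; cases hv)
    simpa [gen, hq] using this
  have k1 : ∀ j i (l : ℕ), (i = i₀ j ∨ l ≠ el (d₂ j) (ζ₂.x n₂)) →
      (ζ₂.f j i).coeff l / (ζ₂.f j (i₀ j)).coeff (l₀ j) ∈ E := by
    intro j i l h
    by_cases hl : l < d₂ j + 1
    · by_cases hq : (i, (⟨l, hl⟩ : Fin (d₂ j + 1))) = p₂ j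
      · obtain ⟨rfl, e2⟩ := Prod.mk.inj hq
        rw [← e2, div_self (by have := hl₀ j; rwa [← e2] at this)]; exact E.one_mem
      · refine k0 (.inl ⟨j, ⟨_, hq⟩⟩) ?_
        rintro ⟨⟨j', i', hi'⟩, hv⟩
        obtain ⟨rfl, hv⟩ := Sigma.mk.inj (Sum.inl.inj hv)
        obtain ⟨rfl, e2⟩ := Prod.mk.inj (Subtype.mk.inj (eq_of_heq hv))
        exact h.elim hi' fun h => h (congrArg Fin.val e2).symm
    · rw [coeff_eq_zero_of_natDegree_lt (lt_of_le_of_lt (ζ₂.cp.1 j i) (by omega)), zero_div]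
      exact E.zero_mem
  have k2 : ∀ j i (l : ℕ), (ζ₂.f j i).coeff l / (ζ₂.f j (i₀ j)).coeff (l₀ j) ∈ E := by
    intro j i l
    by_cases h : l = el (d₂ j) (ζ₂.x n₂)
    · rw [h]
      refine coeff_mem E (kx n₂) (fun l hl => k1 j i l (Or.inr hl)) ?_
      obtain ⟨s, hs, hp⟩ := hp
      have h1 := mul_mem (rat_mem E c1 n₁ j i (i₀ j))
        (hv_mem E (n := d₂ j) (kx n₂) fun l => k1 j (i₀ j) l (Or.inl rfl))
      rw [hp, scl, scl, mul_div_mul_left _ _ (hs j)] at h1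
      have h2 := hi₀ j
      simp only [Dat.cfg, Dat.pt] at h1 h2
      rwa [div_mul_div_cancel₀ h2] at h1
    · exact k1 j i l (Or.inr h)
  have c2 : ζ₂.crd ⊆ E := by
    rintro t (⟨j, i, i', l, l', rfl⟩ | ⟨q, hq⟩)
    · rw [← div_div_div_cancel_right₀ (hl₀ j)]
      exact div_mem (k2 j i l) (k2 j i' l')
    · exact kx q t hq
  have htop : E = ⊤ := top_le_iff.1
    (hg ▸ IntermediateField.adjoin_le_iff.2 (Set.union_subset c1 c2))
  obtain ⟨r1, r2⟩ := dim_le_card G htop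
  refine ⟨r1, ?_⟩
  have r3 : Nat.card (Ix p₂ a b c) = Nat.card (Af i₀) + Nat.card {z // z ∉ Set.range e} := by
    rw [← Nat.card_congr (Equiv.sumCompl (· ∈ Set.range e)), Nat.card_sum,
      Nat.card_congr (Equiv.ofInjective e he)]
  rw [Nat.card_sum, card_Ix p₁ h₁.ne.1 h₁.ne.2.1 h₁.ne.2.2] at r2
  rw [card_Ix p₂ h₂.ne.1 h₂.ne.2.1 h₂.ne.2.2, card_Af] at r3
  omega

end Crest.Agent.X262.Cnt37
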