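import Crest.Agent.X262.Cnt37.Core
import Crest.Agent.X262.Wd54.Defs

/-! # Row 262, road B: `CountStmt` and `NotOnStmt` (helper37) -/

set_option autoImplicit false

namespace Crest.Agent.X262.Cnt37

open Crest.Agent.X262.Vb37

theorem countStmt : Wd54.CountStmt := by
  intro J _ _ io _ _
  refine ⟨fun ξ k hk => ?_, fun ξ ⟨_, _, _, h⟩ hg => count_one ξ h hg,
    fun ζ₁ ζ₂ n₁ n₂ ⟨_, _, _, h₁⟩ ⟨_, _, _, h₂⟩ hp hg => count_two ζ₁ ζ₂ n₁ n₂ h₁ h₂ hp hg⟩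
  obtain ⟨ζ, hx, s, hs, hf⟩ := exists_desc ξ k hk
  exact ⟨ζ, eqv_of_scl hx.symm hs hf, hx, (crd_eq hx.symm hs hf).symm⟩

theorem notOnStmt : Wd54.NotOnStmt := by
  intro J _ _ io _ _ A _ T ⟨a, ha⟩
  exact ⟨fun y hy h => dimP_pos hy (T.hom a) ha (h a),
    fun ξ hu q h => ha (univ_pv hu q (T.hom a) (h a))⟩

end Crest.Agent.X262.Cnt37
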